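import Vale.Agent.P144D.W.Base

/-!
The last integration as a linear functional.
-/

namespace Vale.Agent.P144Z

open Finset Matrix

open Polynomial in
/-- The square root of the cut-off polynomial `rp`. -/
noncomputable def rq (m : ℕ) : ℝ[X] :=
  ((C (1 / (2 * (m : ℝ) + 1)) * (1 + 2 * ∑ k ∈ Finset.Icc 1 m, Chebyshev.T ℝ k)).comp
    (1 - C (1 / 8) * X)) ^ 4

namespace Geo

variable (g : Geo)

/-- Smoothing of the fields at scale `ℓ`; the sources are kept. -/
noncomputable def smo (ℓ : ℕ) : (g.S → ℝ) →ₗ[ℝ] (g.S → ℝ) :=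
  Matrix.toLin' (g.exM (Polynomial.aeval ((Dm g.A)ᵀ * Dm g.A) (rq (ℓ / 32)))) +
    res (Set.range Sum.inr)

/-- The integration over the scales above `ℓ`, with its normalisation. -/
noncomputable def TL (ℓ : ℕ) (F : g.E) : g.E := g.Om (evMap (g.smo ℓ) F)

/-- The last integration is bounded by `K`. -/
def LastB (ℓ : ℕ) (h K : ℝ) : Prop :=
  ∀ β > 0, ∀ F ∈ g.sub univ, g.ps β univ (g.TL ℓ F) ≤ K * g.pn ℓ h β univ F

end Geo

end Vale.Agent.P144Z
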