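import Vale.Agent.P144D.W.Flux

/-!
The approximate zero modes at isolated fluxes.
-/

namespace Vale.Agent.P144Z.LM

open Finset Matrix

/-- the modes at isolated fluxes -/
theorem low_mode : ∃ B : ℝ, 1 ≤ B ∧ ∀ (M : ℕ) [NeZero M] (A : Gauge M), IsW A → ∀ (f : Tor M)
    (ρ : ℕ), 256 ≤ ρ → 8 * ρ ≤ M → flux A f = -1 →
    (∀ f', f' ≠ f → tdist f' f ≤ 3 * ρ + 4 → flux A f' = 1) → ∃ u, SuppIn u f ρ ∧ cnr f ⬝ᵥ u = 1 ∧
      u ⬝ᵥ u ≤ B * ρ ∧ (Dm A *ᵥ u) ⬝ᵥ (Dm A *ᵥ u) * ρ ≤ B := by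
  obtain ⟨C, hC, H⟩ := smooth_mode
  refine ⟨C, hC, fun M _ A hA f ρ hρ hM hf hfl => ?_⟩
  have h1 : ∀ f', tdist f' f ≤ 3 * ρ + 4 → |flux A f'| = 1 := fun f' h => by
    by_cases e : f' = f
    · rw [e, hf, abs_neg, abs_one]
    · rw [hfl f' e h, abs_one]
  have h2 : ∀ e : Tor M × Fin 2, tdist e.1 f ≤ 3 * ρ + 4 → A e = shp A e := fun e h =>
    W.shp_face hA (h1 _ h)
  obtain ⟨u, c, s, g, -⟩ := H M _ (shp_sign A) f ρ hρ (by omega)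
    (by rw [W.flux_shp hA (h1 f (by rw [tdist_self]; omega)), hf])
    fun f' e h => by rw [W.flux_shp hA (h1 f' (by omega)), hfl f' e (by omega)]
  rw [← W.hsq_supp s fun e he => h2 e (by omega)] at g
  refine ⟨u, fun t ht => s t (by omega), c, ?_, ?_⟩
  · rw [← E4.l2sq_univ]
    exact (E4.l2sq_le_hsq A ρ univ u).trans g
  · rw [← E4.l2sq_univ]
    have h3 := (E4.l2sq_D_le_hsq A ρ univ u).trans g
    have h4 : (0:ℝ) < ρ := by exact_mod_cast (by omega : 0 < ρ)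
    refine le_of_mul_le_mul_right ?_ h4
    linarith

end Vale.Agent.P144Z.LM
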