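import Vale.Agent.P144D.LM.LowB
import Vale.Agent.P144D.LM.Low

/-!
Block LM: the last integration.
-/
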