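import Vale.Agent.P144D.LM.Defs
import Vale.Agent.P144D.W.Main
import Vale.Agent.P144Z.H4.Pf

/-!
The last integration: algebraic properties and the bound under a spectral gap.
-/

namespace Vale.Agent.P144Z.LM

open Finset Matrix Geo I2 A1

set_option linter.unusedSectionVars false

section Gen

variable {S S' : Type} [Fintype S] [DecidableEq S] [Fintype S'] [DecidableEq S']

/-- A functional that kills the fields in the range of `1 - P` only sees the fields `P δ`. -/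
theorem proj_unique (L : Gr S →ₗ[ℝ] Gr S') (P : (S → ℝ) →ₗ[ℝ] (S → ℝ))
    (h : ∀ δ G, L (psi (δ - P δ) * G) = 0) (G : Gr S) : L G = L (ExteriorAlgebra.map P G) := by
  have key : ∀ H K : Gr S, L (H * G * K) = L (H * ExteriorAlgebra.map P G * K) := by
    induction G using ExteriorAlgebra.induction with
    | algebraMap r => intro H K; rw [AlgHom.commutes]
    | ι x =>
      intro H K
      have h1 := h x (inv H * K)
      have e : psi (x - P x) = psi x - psi (P x) := map_sub _ _ _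
      rw [← mul_assoc, ← mul_psi, e, mul_sub, sub_mul, map_sub, sub_eq_zero] at h1
      exact h1.trans (by rw [← map_psi]; rfl)
    | mul a b ha hb =>
      intro H K
      rw [map_mul (ExteriorAlgebra.map P), ← mul_assoc, hb, mul_assoc, ha, ← mul_assoc,
        mul_assoc H]
    | add a b ha hb =>
      intro H K
      simp only [map_add, mul_add, add_mul, ha H K, hb H K]
  simpa only [one_mul, mul_one] using key 1 1

/-- The smoothing matrix. -/
noncomputable def Rm (D : Matrix S S ℝ) (ℓ : ℕ) : Matrix S S ℝ :=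
  Polynomial.aeval (Dᵀ * D) (rq (ℓ / 32))

theorem Rm_eq (D : Matrix S S ℝ) (ℓ : ℕ) : Rm D ℓ = C.fc D (rq (ℓ / 32)).eval := C.fc_poly _ _

theorem rq_sq (m : ℕ) (s : ℝ) : (rq m).eval s * (rq m).eval s = (rp m).eval s := by
  rw [← Polynomial.eval_mul, show rq m = C.dk m ^ 4 from rfl, C.rp_eq, ← pow_add]

theorem rq_zero (m : ℕ) : (rq m).eval 0 = 1 := by
  have h := C.dk_eval m 0
  simp only [Real.cos_zero, sub_self, mul_zero, sum_const, Nat.card_Icc, add_tsub_cancel_right,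
    nsmul_eq_mul, mul_one] at h
  rw [show rq m = C.dk m ^ 4 from rfl, Polynomial.eval_pow, h, add_comm, div_self (by positivity),
    one_pow]

theorem Rm_tr (D : Matrix S S ℝ) (ℓ : ℕ) : (Rm D ℓ)ᵀ = Rm D ℓ := by rw [Rm_eq, C.fc_tr]

theorem Rm_covI {D : Matrix S S ℝ} (hD : Dᵀ = -D) (ℓ : ℕ) :
    Rm D ℓ * covI D * Rm D ℓ = covL D ℓ := by
  rw [Rm_eq, C.covI_eq, C.covL_eq, ← Matrix.mul_assoc, C.fc_comm hD, Matrix.mul_assoc,
    Matrix.mul_assoc, ← C.fc_mul, ← C.fc_mul]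
  congr 1
  exact C.fc_congr D fun s _ => by rw [← rq_sq]; ring

/-- The projection on the kernel. -/
noncomputable def Pk (D : Matrix S S ℝ) : Matrix S S ℝ := 1 + covI D * D

theorem Pk_eq {D : Matrix S S ℝ} (hD : Dᵀ = -D) : Pk D = C.fc D fun s => 1 - s * s⁻¹ := by
  rw [Pk, ← (covI_mul hD).2.1, C.covI_eq, ← Matrix.mul_assoc, C.mul_self_eq hD, C.fc_sub,
    C.fc_one, C.fc_mul, Matrix.neg_mul, sub_eq_add_neg]

theorem Pk_tr {D : Matrix S S ℝ} (hD : Dᵀ = -D) : (Pk D)ᵀ = Pk D := by rw [Pk_eq hD, C.fc_tr]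

theorem Pk_Rm {D : Matrix S S ℝ} (hD : Dᵀ = -D) (ℓ : ℕ) : Pk D * Rm D ℓ = Pk D := by
  rw [Pk_eq hD, Rm_eq, ← C.fc_mul]
  refine C.fc_congr D fun s _ => ?_
  by_cases h : s = 0
  · rw [h, rq_zero, mul_one]
  · rw [mul_inv_cancel₀ h, sub_self, zero_mul]

theorem covI_Pk {D : Matrix S S ℝ} (hD : Dᵀ = -D) : covI D * Pk D = 0 := by
  rw [Pk, Matrix.mul_add, ← (covI_mul hD).2.1, ← Matrix.mul_assoc, (covI_mul hD).2.2,
    Matrix.mul_one, add_neg_cancel]

end Gen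

variable {g : Geo}

/-- A matrix acting on the fields; the sources are kept. -/
noncomputable def act (g : Geo) (R : Matrix (Tor g.M × Fin 4) (Tor g.M × Fin 4) ℝ) :
    (g.S → ℝ) →ₗ[ℝ] (g.S → ℝ) := Matrix.toLin' (g.exM R) + pS g

theorem smo_eq (ℓ : ℕ) : g.smo ℓ = act g (Rm (Dm g.A) ℓ) := rfl

theorem act_apply (R : Matrix (Tor g.M × Fin 4) (Tor g.M × Fin 4) ℝ) (δ : g.S → ℝ) :
    act g R δ = g.ex (R *ᵥ (δ ∘ Sum.inl)) + pS g δ := by
  rw [act, LinearMap.add_apply, Matrix.toLin'_apply, ← vecMul_transpose, exM_tr, vecMul_exM,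
    vecMul_transpose]

theorem act_inl (R : Matrix (Tor g.M × Fin 4) (Tor g.M × Fin 4) ℝ) (δ : g.S → ℝ) :
    act g R δ ∘ Sum.inl = R *ᵥ (δ ∘ Sum.inl) := by
  rw [act_apply]
  funext s
  rw [Function.comp_apply, Pi.add_apply, pS_inl, add_zero]
  rfl

theorem pS_act (R : Matrix (Tor g.M × Fin 4) (Tor g.M × Fin 4) ℝ) (δ : g.S → ℝ) :
    pS g (act g R δ) = pS g δ := by rw [act_apply, map_add, pS_ex, pS_pS, zero_add]

theorem act_pS (R : Matrix (Tor g.M × Fin 4) (Tor g.M × Fin 4) ℝ) (δ : g.S → ℝ) :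
    act g R (pS g δ) = pS g δ := by
  rw [act_apply, pS_inl', mulVec_zero, ex_zero, pS_pS, zero_add]

theorem act_act (R R' : Matrix (Tor g.M × Fin 4) (Tor g.M × Fin 4) ℝ) :
    act g R ∘ₗ act g R' = act g (R * R') := by
  refine LinearMap.ext fun δ => ?_
  rw [LinearMap.comp_apply, act_apply R, act_inl, pS_act, act_apply, mulVec_mulVec]

theorem act_src (R : Matrix (Tor g.M × Fin 4) (Tor g.M × Fin 4) ℝ) {P : g.E}
    (hP : g.noF P = P) : evMap (act g R) P = P := by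
  rw [← hP]
  exact (R1.evMap_evMap _ _ P).trans
    (congrArg (fun f => evMap f P) (LinearMap.ext fun δ => act_pS R δ))

theorem noF_act (R : Matrix (Tor g.M × Fin 4) (Tor g.M × Fin 4) ℝ) (F : g.E) :
    g.noF (evMap (act g R) F) = g.noF F :=
  (R1.evMap_evMap _ _ F).trans (congrArg (fun f => evMap f F) (LinearMap.ext fun δ => pS_act R δ))

theorem exM_single_dot (C : Matrix (Tor g.M × Fin 4) (Tor g.M × Fin 4) ℝ) (s s' : g.S) :
    ((Pi.single s 1 : g.S → ℝ) ∘ Sum.inl) ⬝ᵥ C *ᵥ ((Pi.single s' 1 : g.S → ℝ) ∘ Sum.inl)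
      = g.exM C s s' := by
  rw [← RN.exM_dot, single_one_dotProduct, mulVec_single_one]
  rfl

theorem gauss_act {C : Matrix (Tor g.M × Fin 4) (Tor g.M × Fin 4) ℝ} (hC : Cᵀ = -C)
    (R : Matrix (Tor g.M × Fin 4) (Tor g.M × Fin 4) ℝ) (F : Gr g.S) :
    gauss (g.exM C) (ExteriorAlgebra.map (act g R) F) =
      ExteriorAlgebra.map (act g R) (gauss (g.exM (Rᵀ * C * R)) F) := by
  have h : (Rᵀ * C * R)ᵀ = -(Rᵀ * C * R) := by
    rw [transpose_mul, transpose_mul, transpose_transpose, hC, Matrix.neg_mul, Matrix.mul_neg,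
      Matrix.mul_assoc]
  refine gauss_map (I2.exM_anti g h) (I2.exM_anti g hC) _ (mem_loc_univ F) fun s _ s' _ => ?_
  rw [RN.exM_dot, act_inl, act_inl, mulVec_mulVec, P144Z.C.dot_mulVec,
    ← Matrix.mul_assoc, exM_single_dot]

theorem evG_act {C : Matrix (Tor g.M × Fin 4) (Tor g.M × Fin 4) ℝ} (hC : Cᵀ = -C)
    (R : Matrix (Tor g.M × Fin 4) (Tor g.M × Fin 4) ℝ) (F : g.E) :
    evG (g.exM C) (evMap (act g R) F) = evMap (act g R) (evG (g.exM (Rᵀ * C * R)) F) := by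
  apply Ev.val_injective
  rw [val_evG, val_evMap, val_evMap, val_evG, gauss_act hC]

/-- The free functional after the integration of all nonzero modes. -/
theorem Om_ker (F : g.E) :
    g.Om F = g.Om (evMap (act g (Pk (Dm g.A))) (evG (g.exM (covI (Dm g.A))) F)) := by
  have ha := C.Dm_anti g.A
  have hc := covI_anti ha
  have hC := I2.exM_anti g hc
  have hC' : (-g.exM (covI (Dm g.A)))ᵀ = -(-g.exM (covI (Dm g.A))) := by rw [transpose_neg, hC]
  have e2 : ∀ η, g.ex (-η) = -g.ex η := fun η => map_neg (exL g) η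
  have key := proj_unique (OmL g ∘ₗ gauss (-g.exM (covI (Dm g.A)))) (act g (Pk (Dm g.A)))
    (fun δ G => by
      have e : δ - act g (Pk (Dm g.A)) δ
          = g.ex ((-(δ ∘ Sum.inl) ᵥ* covI (Dm g.A)) ᵥ* Dm g.A) := by
        rw [act_apply, ← vecMul_transpose, Pk_tr ha, Pk, vecMul_add, vecMul_one, vecMul_vecMul,
          neg_vecMul, e2]
        conv_lhs => rw [split g δ]
        rw [show (g.ex (δ ∘ Sum.inl) + pS g δ) ∘ Sum.inl = δ ∘ Sum.inl by rw [← split],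
          show pS g (g.ex (δ ∘ Sum.inl) + pS g δ) = pS g δ by rw [← split]]
        change exL g _ + _ - (exL g _ + _) = -exL g _
        rw [map_add]
        abel
      rw [LinearMap.comp_apply, e, gauss_psi_mul hC', map_add, OmL_fld, vecMul_neg, vecMul_exM,
        ex_inl, vecMul_vecMul, vecMul_vecMul, ← Matrix.mul_assoc, (covI_mul ha).2.2, vecMul_neg,
        e2, neg_neg, neg_add_cancel])
    (gauss (g.exM (covI (Dm g.A))) (Ev.val F))
  rw [LinearMap.comp_apply, LinearMap.comp_apply, gauss_neg_gauss] at key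
  apply Ev.val_injective
  rw [val_Om, val_Om, key, val_evMap, val_evG]
  congr 1
  have e3 : -g.exM (covI (Dm g.A)) = g.exM (-covI (Dm g.A)) := (map_neg (exML g) _).symm
  have e4 : g.exM 0 = 0 := map_zero (exML g)
  rw [e3, gauss_act (by rw [transpose_neg, hc]), Matrix.mul_assoc, Matrix.neg_mul, covI_Pk ha,
    neg_zero, Matrix.mul_zero, e4, gauss_zero]

theorem evG_smo (ℓ : ℕ) (F : g.E) : evG (g.exM (covI (Dm g.A))) (evMap (g.smo ℓ) F)
    = evMap (g.smo ℓ) (evG (g.exM (covL (Dm g.A) ℓ)) F) := by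
  rw [smo_eq, evG_act (covI_anti (C.Dm_anti g.A)), Rm_tr, Rm_covI (C.Dm_anti g.A)]

theorem TL_eq (ℓ : ℕ) (Y : g.E) :
    g.TL ℓ Y = g.Om (evMap (act g (Pk (Dm g.A))) (evG (g.exM (covL (Dm g.A) ℓ)) Y)) := by
  rw [TL, Om_ker, evG_smo, R1.evMap_evMap, smo_eq, act_act, Pk_Rm (C.Dm_anti g.A)]

theorem TL_add (ℓ : ℕ) (F G : g.E) : g.TL ℓ (F + G) = g.TL ℓ F + g.TL ℓ G := by
  rw [TL, map_add, Om_add]; rfl

theorem TL_smul (ℓ : ℕ) (c : ℝ) (F : g.E) : g.TL ℓ (c • F) = c • g.TL ℓ F := by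
  rw [TL, map_smul, Om_smul]; rfl

theorem TL_src (ℓ : ℕ) {P : g.E} (hP : g.noF P = P) (F : g.E) :
    g.TL ℓ (P * F) = P * g.TL ℓ F := by
  rw [TL, evMap_mul, smo_eq, act_src _ hP, Om_src g hP]; rfl

theorem noF_TL (ℓ : ℕ) (F : g.E) : g.noF (g.TL ℓ F) = g.TL ℓ F := noF_Om g _

theorem noF_mem_univ (F : g.E) : g.noF F ∈ g.sub univ := by
  have e : g.gens univ = Set.univ := Set.eq_univ_of_forall fun s => mem_univ (g.pos s)
  refine RN.mem_sub.2 ⟨by rw [e]; exact mem_loc_univ _, ?_⟩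
  rw [val_noF, RN.map_map]
  congr 2
  refine LinearMap.ext fun δ => funext fun s => ?_
  rw [LinearMap.comp_apply, RN.flip_apply]
  rcases s with s | k
  · simp [pS_inl]
  · rfl

theorem TL_mem' (ℓ : ℕ) (F : g.E) : g.TL ℓ F ∈ g.sub univ := noF_mem_univ _

theorem TL_mem (ℓ : ℕ) {F : g.E} (hF : F ∈ g.sub univ) : g.TL ℓ F ∈ g.sub univ := by
  have _ := hF
  exact TL_mem' ℓ F

section Sub

variable {f : (g.S → ℝ) →ₗ[ℝ] (g.S → ℝ)} (h1 : ∀ δ, f (g.ex δ) = g.ex δ)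
  (h2 : ∀ δ, pS g (f δ) = f (pS g δ))

include h1 h2

theorem sub_inl (δ : g.S → ℝ) : f δ ∘ Sum.inl = δ ∘ Sum.inl := by
  conv_lhs => rw [split g δ, map_add, h1, ← h2]
  funext s
  rw [Function.comp_apply, Pi.add_apply, pS_inl, add_zero]
  rfl

/-- A substitution of the sources commutes with the free functional. -/
theorem Om_sub (F : g.E) : g.Om (evMap f F) = evMap f (g.Om F) := by
  have hE : evMap f (NormedSpace.exp (tc • ∑ e : Tor g.M × Fin 2, g.edge e.1 e.2))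
      = NormedSpace.exp (tc • ∑ e : Tor g.M × Fin 2, g.edge e.1 e.2) := by
    rw [hom_exp _ (evMap_one f) (evMap_mul f), map_smul, map_sum]
    congr 2
    refine sum_congr rfl fun e _ => ?_
    rw [edge, map_smul, evMap_pp, ← ex_single, ← ex_single, h1, h1]
  have hG : ∀ X : g.E, evG (g.exM (gM g.M)) (evMap f X) = evMap f (evG (g.exM (gM g.M)) X) := by
    intro X
    apply Ev.val_injective
    rw [val_evG, val_evMap, val_evMap, val_evG]
    refine gauss_map (I2.exM_anti g (gM_anti _)) (I2.exM_anti g (gM_anti _)) _ (mem_loc_univ _)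
      fun s _ s' _ => ?_
    rw [RN.exM_dot, sub_inl h1 h2, sub_inl h1 h2, exM_single_dot]
  rw [Om, Om, ← hE, ← evMap_mul, hG, hE]
  exact (R1.evMap_evMap _ _ _).trans ((congrArg (fun f => evMap f _) (LinearMap.ext h2)).trans
    (R1.evMap_evMap _ _ _).symm)

theorem TL_sub (ℓ : ℕ) (F : g.E) : g.TL ℓ (evMap f F) = evMap f (g.TL ℓ F) := by
  rw [TL, TL, ← Om_sub h1 h2, R1.evMap_evMap, R1.evMap_evMap]
  congr 2
  refine congrArg evMap (LinearMap.ext fun δ => ?_)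
  rw [LinearMap.comp_apply, LinearMap.comp_apply, smo_eq, act_apply, act_apply, sub_inl h1 h2,
    map_add, h1, h2]

end Sub

theorem prF_pS (δ : g.S → ℝ) : pS g (RN.prF g δ) = RN.prF g (pS g δ) := by
  funext s
  cases s <;> simp [RN.res_apply]

theorem TL_scB (ℓ : ℕ) (a : ℝ) (F : g.E) : g.TL ℓ (g.scB a F) = g.scB a (g.TL ℓ F) :=
  TL_sub (f := R3W.sm g a)
    (fun δ => by rw [← RN.prF_ex]; exact LinearMap.congr_fun (R3W.sm_prF a) _)
    (fun δ => (LinearMap.congr_fun (R3W.sm_prB a) δ).symm) ℓ F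

theorem TL_noB (ℓ : ℕ) (F : g.E) : g.TL ℓ (g.noB F) = g.noB (g.TL ℓ F) :=
  TL_sub (f := RN.prF g) (RN.prF_ex g) prF_pS ℓ F

theorem Om_noB (F : g.E) : g.Om (g.noB F) = g.noB (g.Om F) :=
  Om_sub (f := RN.prF g) (RN.prF_ex g) prF_pS F

theorem TL_one (ℓ : ℕ) : g.TL ℓ 1 = Zw par0 g.A (fun _ => 1) • 1 := by
  rw [TL, evMap_one, Om_one]

/-- no invertibility needed -/
theorem Om_eq_TL (ℓ : ℕ) {P X Y : g.E} (hP : g.noF P = P)
    (h : evG (g.exM (covI (Dm g.A))) X = P * evG (g.exM (covL (Dm g.A) ℓ)) Y) :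
    g.Om X = P * g.TL ℓ Y := by
  rw [Om_ker, h, evMap_mul, act_src _ hP, Om_src g hP, TL_eq]

theorem lastB_gap : ∃ C : ℝ, 1 ≤ C ∧ ∀ g : Geo, IsW g.A → ∀ ℓ : ℕ, 8 ≤ ℓ → ∀ Γ : ℝ, 1 ≤ Γ →
    (∀ φ, φ ⬝ᵥ φ ≤ (Γ * ℓ) ^ 2 * ((Dm g.A *ᵥ φ) ⬝ᵥ (Dm g.A *ᵥ φ))) → ∀ h : ℝ, C * Γ ≤ h →
    g.LastB ℓ h |Zw par0 g.A fun _ => 1| := by
  obtain ⟨C, hC, H⟩ := W.RN.isExp_covL
  refine ⟨C, hC, fun g hA ℓ h8 Γ hΓ hgap h hh β hβ F hF => ?_⟩
  have hl : (0 : ℝ) < ℓ := by exact_mod_cast (by omega : 0 < ℓ)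
  have h0 : 0 < h := lt_of_lt_of_le (by positivity) hh
  have hD : ∀ φ, Dm g.A *ᵥ φ = 0 → φ = 0 := fun φ hφ => by
    have := hgap φ
    rw [hφ, zero_dotProduct, mul_zero] at this
    exact dotProduct_self_eq_zero.1 (le_antisymm this (P144Z.C.dot_nonneg φ))
  have hE := H g hA ℓ h8 (Γ * ℓ) (le_mul_of_one_le_left hl.le hΓ)
    (fun v => by rw [← mulVec_mulVec]; exact hgap _) h β h0 hβ
    (by rw [← mul_assoc, mul_div_assoc, div_self hl.ne', mul_one]; exact hh)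
  have h1 := hE.le hF
  rw [zero_mul, Real.exp_zero, one_mul] at h1
  rw [TL, Om_inv g hD, evG_smo, smo_eq, noF_act, Om_one, mul_smul_comm, mul_one, ps,
    RN.pn_smul le_rfl one_pos hβ]
  refine mul_le_mul_of_nonneg_left (le_trans ?_ h1) (abs_nonneg _)
  exact R1.pn_noF' (by omega) (half_pos h0) hβ le_rfl one_pos (hE.mem hF)

end Vale.Agent.P144Z.LM
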