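import Mathlib

/-!
# Linear algebra of the low modes

A skew matrix with a gap off finitely many approximate zero modes becomes invertible, with
quantitative bounds, after adding a finite rank skew term pairing the modes.
-/

namespace Vale.Agent.P144Z.LM

open Finset Matrix

section nr

variable {S : Type} [Fintype S]

/-- Euclidean length -/
noncomputable def nr (v : S → ℝ) : ℝ := ‖(WithLp.toLp 2 v : EuclideanSpace ℝ S)‖

theorem nr_nonneg (v : S → ℝ) : 0 ≤ nr v := norm_nonneg _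

theorem nr_sq (v : S → ℝ) : nr v ^ 2 = v ⬝ᵥ v := by
  rw [nr, EuclideanSpace.norm_sq_eq]
  simp only [dotProduct, Real.norm_eq_abs, sq_abs]
  exact Finset.sum_congr rfl fun i _ => sq (v i)

theorem abs_dot_le (v w : S → ℝ) : |v ⬝ᵥ w| ≤ nr v * nr w := by
  have h := abs_real_inner_le_norm (WithLp.toLp 2 w : EuclideanSpace ℝ S) (WithLp.toLp 2 v)
  rw [mul_comm] at h
  have e : inner ℝ (WithLp.toLp 2 w : EuclideanSpace ℝ S) (WithLp.toLp 2 v) = v ⬝ᵥ w := by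
    simp [PiLp.inner_apply, dotProduct]
  rwa [e] at h

theorem nr_add_le (v w : S → ℝ) : nr (v + w) ≤ nr v + nr w := by
  unfold nr
  rw [WithLp.toLp_add]
  exact norm_add_le _ _

theorem nr_sub_le (v w : S → ℝ) : nr (v - w) ≤ nr v + nr w := by
  unfold nr
  rw [WithLp.toLp_sub]
  exact norm_sub_le _ _

theorem nr_smul (a : ℝ) (v : S → ℝ) : nr (a • v) = |a| * nr v := by
  unfold nr
  rw [WithLp.toLp_smul, norm_smul, Real.norm_eq_abs]

theorem nr_zero : nr (0 : S → ℝ) = 0 := by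
  unfold nr
  rw [WithLp.toLp_zero, norm_zero]

theorem nr_sum_le {I : Type} [Fintype I] (α : I → ℝ) (w : I → S → ℝ) {x : ℝ}
    (hw : ∀ a, nr (w a) ≤ x) : nr (∑ a, α a • w a) ≤ Fintype.card I * (‖α‖ * x) := by
  classical
  have key : ∀ s : Finset I, nr (∑ a ∈ s, α a • w a) ≤ s.card * (‖α‖ * x) := by
    intro s
    induction s using Finset.induction_on with
    | empty => simp [nr_zero]
    | insert a s ha ih =>
      rw [Finset.sum_insert ha, Finset.card_insert_of_notMem ha]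
      have h1 : nr (α a • w a) ≤ ‖α‖ * x := by
        rw [nr_smul]
        exact mul_le_mul (norm_le_pi_norm α a) (hw a) (nr_nonneg _) (norm_nonneg _)
      have h2 := nr_add_le (α a • w a) (∑ a ∈ s, α a • w a)
      push_cast
      linarith
  exact key univ

theorem nr_le_of_sq {v : S → ℝ} {x : ℝ} (hx : 0 ≤ x) (h : v ⬝ᵥ v ≤ x ^ 2) : nr v ≤ x := by
  rw [← nr_sq] at h
  exact (sq_le_sq₀ (nr_nonneg v) hx).1 h

theorem dot_le_of_nr {v : S → ℝ} {x : ℝ} (h : nr v ≤ x) : v ⬝ᵥ v ≤ x ^ 2 := by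
  rw [← nr_sq]
  exact pow_le_pow_left₀ (nr_nonneg v) h 2

end nr

/-- the pairing of the modes -/
def Jm {p : ℕ} (α : Fin p × Fin 2 → ℝ) (a : Fin p × Fin 2) : ℝ :=
  if a.2 = 0 then α (a.1, 1) else -α (a.1, 0)

theorem norm_le_of_Jm {p : ℕ} (α : Fin p × Fin 2 → ℝ) {x : ℝ} (hx : 0 ≤ x)
    (h : ∀ a, |Jm α a| ≤ x) : ‖α‖ ≤ x := by
  rw [pi_norm_le_iff_of_nonneg hx]
  rintro ⟨i, j⟩
  rw [Real.norm_eq_abs]
  fin_cases j
  · simpa [Jm] using h (i, 1)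
  · simpa [Jm] using h (i, 0)

theorem abs_Jm_le {p : ℕ} (α : Fin p × Fin 2 → ℝ) (a : Fin p × Fin 2) : |Jm α a| ≤ ‖α‖ := by
  unfold Jm
  split_ifs
  · exact norm_le_pi_norm α _
  · rw [abs_neg]; exact norm_le_pi_norm α _

theorem K_mulVec {p : ℕ} {S : Type} [Fintype S] (c : Fin p × Fin 2 → S → ℝ) (φ : S → ℝ) :
    (∑ i, (vecMulVec (c (i, 0)) (c (i, 1)) - vecMulVec (c (i, 1)) (c (i, 0)))) *ᵥ φ =
      ∑ a, Jm (fun a => c a ⬝ᵥ φ) a • c a := by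
  rw [Matrix.sum_mulVec, Fintype.sum_prod_type]
  refine Finset.sum_congr rfl fun i _ => ?_
  rw [Fin.sum_univ_two, Matrix.sub_mulVec, vecMulVec_mulVec, vecMulVec_mulVec]
  simp [Jm, sub_eq_add_neg]

/-- the basic estimate -/
theorem core {p : ℕ} {S : Type} [Fintype S] {D : Matrix S S ℝ} (hD : Dᵀ = -D) {b g L t : ℝ}
    (hb : 0 ≤ b) (hg : 0 ≤ g) (hL : 0 < L) {c u : Fin p × Fin 2 → S → ℝ}
    (hcu : ∀ a b, c a ⬝ᵥ u b = if a = b then 1 else 0) (hu : ∀ a, nr (u a) ≤ b * L)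
    (hDu : ∀ a, nr (D *ᵥ u a) ≤ b / L)
    (hgap : ∀ φ, (∀ a, c a ⬝ᵥ φ = 0) → ∀ s : Fin p × Fin 2 → ℝ,
      nr φ ≤ g * L ^ 2 * nr (D *ᵥ φ - ∑ a, s a • c a))
    {φ f : S → ℝ} {s α : Fin p × Fin 2 → ℝ} (hα : α = fun a => c a ⬝ᵥ φ)
    (h : D *ᵥ φ + t • ∑ a, Jm α a • c a = f + ∑ a, s a • c a) :
    nr φ ≤ g * L ^ 2 * nr f + (1 + g) * (2 * p) * b * L * ‖α‖ ∧
    ∀ a, |t * Jm α a - s a| ≤ b * (1 + g) * L * nr f + 2 * p * b ^ 2 * (1 + g) * ‖α‖ := by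
  classical
  have hn : (Fintype.card (Fin p × Fin 2) : ℝ) = 2 * p := by simp [mul_comm]
  have hcu' : ∀ (a) (r : Fin p × Fin 2 → ℝ), c a ⬝ᵥ (∑ a', r a' • u a') = r a := by
    intro a r
    rw [dotProduct_sum]
    simp [hcu]
  have huc' : ∀ (a) (r : Fin p × Fin 2 → ℝ), u a ⬝ᵥ (∑ a', r a' • c a') = r a := by
    intro a r
    rw [dotProduct_sum]
    simp [dotProduct_comm (u a), hcu]
  set φ0 := φ - ∑ a, α a • u a with hφ0
  have h0 : ∀ a, c a ⬝ᵥ φ0 = 0 := fun a => by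
    rw [hφ0, dotProduct_sub, hcu', hα, sub_self]
  have hDφ : D *ᵥ φ = f + ∑ a, (s a - t * Jm α a) • c a := by
    have : (∑ a, (s a - t * Jm α a) • c a) = ∑ a, s a • c a - t • ∑ a, Jm α a • c a := by
      rw [Finset.smul_sum, ← Finset.sum_sub_distrib]
      exact Finset.sum_congr rfl fun a _ => by rw [sub_smul, mul_smul]
    rw [this, ← add_sub_assoc, ← h, add_sub_cancel_right]
  have hD0 : D *ᵥ φ0 - ∑ a, (s a - t * Jm α a) • c a = f - ∑ a, α a • D *ᵥ u a := by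
    rw [hφ0, Matrix.mulVec_sub, hDφ, Matrix.mulVec_sum]
    simp only [Matrix.mulVec_smul]
    abel
  have hs1 := nr_sum_le α (fun a => D *ᵥ u a) hDu
  have hs2 := nr_sum_le α u hu
  rw [hn] at hs1 hs2
  have hA := norm_nonneg α
  have hf := nr_nonneg f
  have hφ0le : nr φ0 ≤ g * L ^ 2 * nr f + g * (2 * p) * b * L * ‖α‖ := by
    have h1 := hgap φ0 h0 fun a => s a - t * Jm α a
    rw [hD0] at h1
    have h2 := nr_sub_le f (∑ a, α a • D *ᵥ u a)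
    calc nr φ0 ≤ g * L ^ 2 * (nr f + 2 * p * (‖α‖ * (b / L))) :=
          h1.trans (mul_le_mul_of_nonneg_left (by linarith) (by positivity))
      _ = _ := by field_simp
  constructor
  · have e : φ = φ0 + ∑ a, α a • u a := by rw [hφ0, sub_add_cancel]
    have := nr_add_le φ0 (∑ a, α a • u a)
    rw [← e] at this
    nlinarith
  · intro a
    have e1 : u a ⬝ᵥ D *ᵥ φ = -((D *ᵥ u a) ⬝ᵥ φ) := by
      rw [dotProduct_mulVec, ← Matrix.mulVec_transpose, hD, Matrix.neg_mulVec, neg_dotProduct]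
    have e2 : u a ⬝ᵥ D *ᵥ φ = u a ⬝ᵥ f + (s a - t * Jm α a) := by
      rw [hDφ, dotProduct_add, huc']
    have e3 : (D *ᵥ u a) ⬝ᵥ φ = (D *ᵥ u a) ⬝ᵥ φ0 + (D *ᵥ u a) ⬝ᵥ ∑ a, α a • u a := by
      rw [← dotProduct_add, hφ0, sub_add_cancel]
    have e4 : t * Jm α a - s a =
        u a ⬝ᵥ f + ((D *ᵥ u a) ⬝ᵥ φ0 + (D *ᵥ u a) ⬝ᵥ ∑ a, α a • u a) := by linarith
    have b1 : |u a ⬝ᵥ f| ≤ b * L * nr f :=
      (abs_dot_le _ _).trans (mul_le_mul_of_nonneg_right (hu a) hf)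
    have b2 : |(D *ᵥ u a) ⬝ᵥ φ0| ≤ b / L * (g * L ^ 2 * nr f + g * (2 * p) * b * L * ‖α‖) :=
      (abs_dot_le _ _).trans (mul_le_mul (hDu a) hφ0le (nr_nonneg _) (by positivity))
    have b3 : |(D *ᵥ u a) ⬝ᵥ ∑ a, α a • u a| ≤ b / L * (2 * p * (‖α‖ * (b * L))) :=
      (abs_dot_le _ _).trans (mul_le_mul (hDu a) hs2 (nr_nonneg _) (by positivity))
    have b4 : b * L * nr f + (b / L * (g * L ^ 2 * nr f + g * (2 * p) * b * L * ‖α‖) +
        b / L * (2 * p * (‖α‖ * (b * L)))) =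
        b * (1 + g) * L * nr f + 2 * p * b ^ 2 * (1 + g) * ‖α‖ := by
      field_simp
      ring
    rw [e4, ← b4]
    exact (abs_add_le _ _).trans (add_le_add b1 ((abs_add_le _ _).trans (add_le_add b2 b3)))

theorem la (p : ℕ) (B G : ℝ) : ∃ t C : ℝ, 0 < t ∧ 1 ≤ C ∧ ∀ (S : Type) [Fintype S]
    [DecidableEq S] (D : Matrix S S ℝ), Dᵀ = -D → ∀ l : ℝ, 1 ≤ l →
    ∀ c u : Fin p × Fin 2 → S → ℝ, (∀ a b, c a ⬝ᵥ u b = if a = b then 1 else 0) →
    (∀ a, u a ⬝ᵥ u a ≤ B * l) → (∀ a, (D *ᵥ u a) ⬝ᵥ (D *ᵥ u a) * l ≤ B) →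
    (∀ φ, (∀ a, c a ⬝ᵥ φ = 0) → ∀ s : Fin p × Fin 2 → ℝ, φ ⬝ᵥ φ ≤ (G * l) ^ 2 *
      ((D *ᵥ φ - ∑ a, s a • c a) ⬝ᵥ (D *ᵥ φ - ∑ a, s a • c a))) →
    ∃ Gi : Matrix S S ℝ, Gi * (D + t • ∑ i, (vecMulVec (c (i, 0)) (c (i, 1)) -
        vecMulVec (c (i, 1)) (c (i, 0)))) = 1 ∧ Giᵀ = -Gi ∧
      (∀ f, (Gi *ᵥ f) ⬝ᵥ (Gi *ᵥ f) ≤ (C * l) ^ 2 * (f ⬝ᵥ f)) ∧
      (∀ a, (Gi *ᵥ c a) ⬝ᵥ (Gi *ᵥ c a) ≤ C * l) ∧ (∀ a b, |c a ⬝ᵥ Gi *ᵥ c b| ≤ C) ∧
      1 ≤ C * |(Matrix.of fun a b => c a ⬝ᵥ Gi *ᵥ c b).det| := by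
  obtain ⟨b, hb, hBb⟩ : ∃ b : ℝ, 0 ≤ b ∧ B ≤ b ^ 2 :=
    ⟨√|B|, Real.sqrt_nonneg _, by rw [Real.sq_sqrt (abs_nonneg B)]; exact le_abs_self B⟩
  obtain ⟨g, hg, hGg⟩ : ∃ g : ℝ, 0 ≤ g ∧ G ^ 2 = g ^ 2 := ⟨|G|, abs_nonneg _, (sq_abs G).symm⟩
  obtain ⟨k, hk⟩ : ∃ k : ℝ, k = 2 * p * b ^ 2 * (1 + g) := ⟨_, rfl⟩
  have hk0 : 0 ≤ k := by rw [hk]; positivity
  obtain ⟨c1, hc1⟩ : ∃ x : ℝ, x = g + (1 + g) * (2 * p) * b * (b * (1 + g)) := ⟨_, rfl⟩
  obtain ⟨c2, hc2⟩ : ∃ x : ℝ, x = ((1 + g) * (2 * p) * b) ^ 2 := ⟨_, rfl⟩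
  obtain ⟨c3, hc3⟩ : ∃ x : ℝ, x = (Fintype.card (Fin p × Fin 2)).factorial •
    (2 * k + 1) ^ Fintype.card (Fin p × Fin 2) := ⟨_, rfl⟩
  have hc1' : 0 ≤ c1 := by rw [hc1]; positivity
  have hc2' : 0 ≤ c2 := by rw [hc2]; positivity
  have hc3' : 0 ≤ c3 := by rw [hc3, nsmul_eq_mul]; positivity
  refine ⟨k + 1, 1 + c1 + c2 + c3, by positivity, by linarith, ?_⟩
  intro S _ _ D hD l hl c u hcu hu hDu hgap
  obtain ⟨L, hL1, rfl⟩ : ∃ L : ℝ, 1 ≤ L ∧ l = L ^ 2 :=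
    ⟨√l, Real.one_le_sqrt.2 hl, (Real.sq_sqrt (by linarith)).symm⟩
  have hL : 0 < L := by linarith
  have hu' : ∀ a, nr (u a) ≤ b * L := fun a => nr_le_of_sq (by positivity)
    ((hu a).trans (by rw [mul_pow]; gcongr))
  have hDu' : ∀ a, nr (D *ᵥ u a) ≤ b / L := fun a => nr_le_of_sq (by positivity) (by
    rw [div_pow, le_div_iff₀ (by positivity)]
    exact (hDu a).trans hBb)
  have hgap' : ∀ φ, (∀ a, c a ⬝ᵥ φ = 0) → ∀ s : Fin p × Fin 2 → ℝ,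
      nr φ ≤ g * L ^ 2 * nr (D *ᵥ φ - ∑ a, s a • c a) := fun φ h0 s =>
    nr_le_of_sq (mul_nonneg (by positivity) (nr_nonneg _)) (by
      have := hgap φ h0 s
      rw [mul_pow, hGg, ← mul_pow] at this
      rwa [mul_pow, nr_sq])
  set A := D + (k + 1) • ∑ i, (vecMulVec (c (i, 0)) (c (i, 1)) -
    vecMulVec (c (i, 1)) (c (i, 0))) with hA
  have main : ∀ (φ f : S → ℝ) (s : Fin p × Fin 2 → ℝ), A *ᵥ φ = f + ∑ a, s a • c a →
      nr φ ≤ g * L ^ 2 * nr f + (1 + g) * (2 * p) * b * L * ‖fun a => c a ⬝ᵥ φ‖ ∧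
      ‖fun a => c a ⬝ᵥ φ‖ ≤ ‖s‖ + b * (1 + g) * L * nr f ∧
      ‖s‖ ≤ (2 * k + 1) * ‖fun a => c a ⬝ᵥ φ‖ + b * (1 + g) * L * nr f := by
    intro φ f s h
    rw [hA, Matrix.add_mulVec, Matrix.smul_mulVec, K_mulVec] at h
    obtain ⟨h1, h2⟩ := core hD hb hg hL hcu hu' hDu' hgap' rfl h
    rw [← hk] at h2
    set α : Fin p × Fin 2 → ℝ := fun a => c a ⬝ᵥ φ
    have hf := nr_nonneg f
    have hα := norm_nonneg α
    have hs := norm_nonneg s
    have hx : 0 ≤ b * (1 + g) * L * nr f := by positivity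
    refine ⟨h1, ?_, ?_⟩
    · have h3 : ‖α‖ ≤ (‖s‖ + b * (1 + g) * L * nr f + k * ‖α‖) / (k + 1) := by
        refine norm_le_of_Jm α (by positivity) fun a => ?_
        rw [le_div_iff₀ (by positivity)]
        have e : |Jm α a| * (k + 1) = |(k + 1) * Jm α a| := by
          rw [abs_mul, abs_of_pos (by positivity : 0 < k + 1), mul_comm]
        have h4 := abs_add_le ((k + 1) * Jm α a - s a) (s a)
        rw [sub_add_cancel] at h4
        have h5 : |s a| ≤ ‖s‖ := norm_le_pi_norm s a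
        have h6 := h2 a
        rw [e]
        linarith
      rw [le_div_iff₀ (by positivity)] at h3
      linarith
    · rw [pi_norm_le_iff_of_nonneg (by positivity)]
      intro a
      have h4 := abs_sub ((k + 1) * Jm α a) ((k + 1) * Jm α a - s a)
      rw [sub_sub_cancel, abs_mul, abs_of_pos (by positivity : 0 < k + 1)] at h4
      have h5 := mul_le_mul_of_nonneg_left (abs_Jm_le α a) (by positivity : 0 ≤ k + 1)
      have h6 := h2 a
      rw [Real.norm_eq_abs]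
      linarith
  have hinj : Function.Injective A.mulVec := by
    have : ∀ φ, A *ᵥ φ = 0 → φ = 0 := by
      intro φ h
      obtain ⟨h1, h2, -⟩ := main φ 0 0 (by simpa using h)
      rw [nr_zero, norm_zero, mul_zero, add_zero] at h2
      rw [nr_zero, le_antisymm h2 (norm_nonneg _), mul_zero, mul_zero, add_zero] at h1
      have h3 := dot_le_of_nr h1
      rw [zero_pow two_ne_zero] at h3
      exact dotProduct_self_eq_zero.1 (le_antisymm h3 (by rw [← nr_sq]; positivity))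
    intro φ ψ h
    exact sub_eq_zero.1 (this _ (by rw [Matrix.mulVec_sub, h, sub_self]))
  have hunit : IsUnit A.det := (Matrix.isUnit_iff_isUnit_det A).1
    (Matrix.mulVec_injective_iff_isUnit.1 hinj)
  have hl1 : A⁻¹ * A = 1 := Matrix.nonsing_inv_mul A hunit
  have hr1 : A * A⁻¹ = 1 := Matrix.mul_nonsing_inv A hunit
  have hAG : ∀ f, A *ᵥ (A⁻¹ *ᵥ f) = f := fun f => by
    rw [Matrix.mulVec_mulVec, hr1, Matrix.one_mulVec]
  have hAT : Aᵀ = -A := by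
    rw [hA, Matrix.transpose_add, hD, Matrix.transpose_smul, Matrix.transpose_sum, neg_add,
      ← smul_neg, ← Finset.sum_neg_distrib]
    simp only [Matrix.transpose_sub, transpose_vecMulVec, neg_sub]
  have hsingle : ∀ a, (∑ a', (Pi.single a (1:ℝ) : Fin p × Fin 2 → ℝ) a' • c a') = c a := by
    intro a
    rw [Finset.sum_eq_single a (fun a' _ h => by rw [Pi.single_eq_of_ne h, zero_smul]) (by simp)]
    simp
  have hn1 : ∀ a : Fin p × Fin 2, ‖(Pi.single a (1:ℝ) : Fin p × Fin 2 → ℝ)‖ = 1 := fun a => by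
    rw [Pi.norm_single, norm_one]
  have hcol : ∀ a, nr (A⁻¹ *ᵥ c a) ≤ (1 + g) * (2 * p) * b * L ∧
      ‖fun a' => c a' ⬝ᵥ A⁻¹ *ᵥ c a‖ ≤ 1 := by
    intro a
    obtain ⟨h1, h2, -⟩ := main (A⁻¹ *ᵥ c a) 0 (Pi.single a 1) (by rw [hAG, hsingle, zero_add])
    rw [nr_zero, hn1, mul_zero, add_zero] at h2
    rw [nr_zero, mul_zero, zero_add] at h1
    refine ⟨h1.trans ?_, h2⟩
    exact mul_le_of_le_one_right (by positivity) h2
  refine ⟨A⁻¹, hl1, ?_, fun f => ?_, fun a => ?_, fun a a' => ?_, ?_⟩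
  · have h1 : A * (-(A⁻¹)ᵀ) = 1 := by
      have := congrArg Matrix.transpose hl1
      rwa [Matrix.transpose_mul, hAT, Matrix.transpose_one, Matrix.neg_mul, ← Matrix.mul_neg]
        at this
    rw [Matrix.inv_eq_right_inv h1, neg_neg, ← Matrix.inv_eq_right_inv h1]
  · obtain ⟨h1, h2, -⟩ := main (A⁻¹ *ᵥ f) f 0 (by simp [hAG])
    rw [norm_zero, zero_add] at h2
    have hf := nr_nonneg f
    have h3 : nr (A⁻¹ *ᵥ f) ≤ (1 + c1 + c2 + c3) * L ^ 2 * nr f := by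
      have h4 := mul_le_mul_of_nonneg_left h2 (by positivity : 0 ≤ (1 + g) * (2 * p) * b * L)
      have h5 : g * L ^ 2 * nr f + (1 + g) * (2 * p) * b * L * (b * (1 + g) * L * nr f) =
          c1 * L ^ 2 * nr f := by rw [hc1]; ring
      have h6 : c1 * L ^ 2 * nr f ≤ (1 + c1 + c2 + c3) * L ^ 2 * nr f := by gcongr; linarith
      linarith
    have := dot_le_of_nr h3
    rwa [mul_pow, nr_sq] at this
  · have := dot_le_of_nr (hcol a).1
    rw [mul_pow, ← hc2] at this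
    refine this.trans ?_
    gcongr
    linarith
  · have h1 : |c a ⬝ᵥ A⁻¹ *ᵥ c a'| ≤ 1 :=
      (norm_le_pi_norm (fun a => c a ⬝ᵥ A⁻¹ *ᵥ c a') a).trans (hcol a').2
    linarith
  · set N : Matrix (Fin p × Fin 2) (Fin p × Fin 2) ℝ :=
      Matrix.of fun a b => c a ⬝ᵥ A⁻¹ *ᵥ c b with hN
    have hNs : ∀ s, ‖s‖ ≤ (2 * k + 1) * ‖N *ᵥ s‖ := by
      intro s
      obtain ⟨-, -, h3⟩ := main (A⁻¹ *ᵥ ∑ a, s a • c a) 0 s (by rw [hAG, zero_add])
      rw [nr_zero, mul_zero, add_zero] at h3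
      have e : (fun a => c a ⬝ᵥ A⁻¹ *ᵥ ∑ a, s a • c a) = N *ᵥ s := by
        funext a
        rw [Matrix.mulVec_sum, dotProduct_sum]
        simp only [Matrix.mulVec_smul, dotProduct_smul, smul_eq_mul, hN, Matrix.mulVec,
          Matrix.of_apply]
        exact Finset.sum_congr rfl fun x _ => mul_comm _ _
      rwa [e] at h3
    have hNinj : Function.Injective N.mulVec := by
      intro s s' h
      have := hNs (s - s')
      rw [Matrix.mulVec_sub, h, sub_self, norm_zero, mul_zero] at this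
      exact sub_eq_zero.1 (norm_le_zero_iff.1 this)
    have hNu : IsUnit N.det := (Matrix.isUnit_iff_isUnit_det N).1
      (Matrix.mulVec_injective_iff_isUnit.1 hNinj)
    have hent : ∀ a a', AbsoluteValue.abs (N⁻¹ a a') ≤ 2 * k + 1 := by
      intro a a'
      have h1 := hNs (N⁻¹ *ᵥ Pi.single a' 1)
      rw [Matrix.mulVec_mulVec, Matrix.mul_nonsing_inv N hNu, Matrix.one_mulVec, hn1,
        mul_one] at h1
      have h2 := (norm_le_pi_norm (N⁻¹ *ᵥ Pi.single a' 1) a).trans h1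
      simpa using h2
    have hdet := Matrix.det_le hent
    rw [← hc3] at hdet
    have h1 : |N⁻¹.det| * |N.det| = 1 := by
      rw [← abs_mul, Matrix.det_nonsing_inv_mul_det N hNu, abs_one]
    have h2 : |N⁻¹.det| ≤ 1 + c1 + c2 + c3 := by
      have : |N⁻¹.det| ≤ c3 := hdet
      linarith
    exact h1.symm.le.trans (mul_le_mul_of_nonneg_right h2 (abs_nonneg _))

end Vale.Agent.P144Z.LM
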