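import Vale.Agent.P144D.LM.Pull
import Vale.Agent.P144D.LM.LA

/-!
The last integration with low modes.
-/

namespace Vale.Agent.P144Z.LM

open Finset Matrix Geo I2 A1

set_option linter.unusedSectionVars false

variable {g : Geo} {ι : Type} [Fintype ι] [DecidableEq ι]

theorem exM_vec (a b : Tor g.M × Fin 4 → ℝ) :
    g.exM (vecMulVec a b) = vecMulVec (g.ex a) (g.ex b) := by
  ext s t
  rcases s with s | s <;> rcases t with t | t <;> simp [Geo.exM, Geo.ex, vecMulVec_apply]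

/-- The free functional with a weight that lifts the low modes is Gaussian. -/
theorem Om_low (c : ι × Fin 2 → Tor g.M × Fin 4 → ℝ) (t : ℝ)
    {G : Matrix (Tor g.M × Fin 4) (Tor g.M × Fin 4) ℝ} (hG : Gᵀ = -G)
    (hi : G * (Dm g.A + t • ∑ i, (vecMulVec (c (i, 0)) (c (i, 1)) -
      vecMulVec (c (i, 1)) (c (i, 0)))) = 1) (F : g.E) :
    g.Om (pr (fun a => g.ex (c a)) 1 t * F)
      = g.noF (evG (g.exM (-G)) F) * g.Om (pr (fun a => g.ex (c a)) 1 t) := by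
  set U := ∑ i, vecMulVec (c (i, 0)) (c (i, 1)) with hU
  have hK : U - Uᵀ = ∑ i, (vecMulVec (c (i, 0)) (c (i, 1)) - vecMulVec (c (i, 1)) (c (i, 0))) := by
    rw [hU, transpose_sum, ← sum_sub_distrib]
    simp only [transpose_vecMulVec]
  have hE : pr (fun a => g.ex (c a)) 1 t = NormedSpace.exp (t • qd (g.exM U)) := by
    rw [← exp_pr]
    congr 3
    exact ((map_sum (exML g) _ _).trans (sum_congr rfl fun i _ => exM_vec _ _)).symm
  rw [← hK] at hi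
  set E := pr (fun a => g.ex (c a)) 1 t
  have hd : ∀ η, del η (Ev.val E) = psi (η ᵥ* g.exM (t • (U - Uᵀ))) * Ev.val E := fun η => by
    rw [hE, del_exp_exM]
  have hev := Ev.val_mem E
  have e2 : ∀ η, g.ex (-η) = -g.ex η := fun η => map_neg (exL g) η
  have e3 : ∀ a b, g.ex (a + b) = g.ex a + g.ex b := fun a b => map_add (exL g) a b
  have key := gauss_unique (OmL g ∘ₗ LinearMap.mulLeft ℝ (Ev.val E)) (pS g)
    (I2.exM_anti g (C := -G) (by rw [transpose_neg, hG])) (fun δ X => by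
      simp only [LinearMap.comp_apply, LinearMap.mulLeft_apply]
      have h1 : δ ∘ Sum.inl = ((δ ∘ Sum.inl) ᵥ* G) ᵥ* Dm g.A
          + ((δ ∘ Sum.inl) ᵥ* G) ᵥ* (t • (U - Uᵀ)) := by
        rw [← vecMul_add, vecMul_vecMul, hi, vecMul_one]
      have h2 := OmL_fld g ((δ ∘ Sum.inl) ᵥ* G) (Ev.val E * X)
      rw [del_mul, hd, mem_even_iff.1 hev, map_add, vecMul_exM, ex_inl, mul_assoc] at h2
      rw [← mul_assoc, ← psi_mul_comm_of_even hev, mul_assoc, vecMul_exM, vecMul_neg, e2,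
        del_neg_left, mul_neg, map_neg, ← OmL_src]
      conv_lhs => rw [split g δ, h1, e3, psi_add, psi_add, add_mul, add_mul, map_add, map_add, h2]
      abel) (Ev.val F)
  simp only [LinearMap.comp_apply, LinearMap.mulLeft_apply, mul_one] at key
  apply Ev.val_injective
  rw [val_Om, map_mul, key, map_mul, val_Om, val_noF, val_evG]

theorem Om_pr (c : ι × Fin 2 → Tor g.M × Fin 4 → ℝ) (a t : ℝ) :
    g.Om (pr (fun a => g.ex (c a)) a t)
      = aug (Ev.val (g.Om (pr (fun a => g.ex (c a)) a t))) • 1 := by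
  have h : g.noB (pr (fun a => g.ex (c a)) a t) = pr (fun a => g.ex (c a)) a t := by
    rw [noB, evMap_pr]
    simp only [RN.prF_ex]
  conv_lhs => rw [← h, Om_noB, ← noF_Om, noB_noF]

theorem lastB_low (p : ℕ) (B Γ : ℝ) : ∃ C : ℝ, 1 ≤ C ∧ ∀ g : Geo, IsW g.A → ∀ ℓ : ℕ, 8 ≤ ℓ →
    ∀ c u : Fin p × Fin 2 → Tor g.M × Fin 4 → ℝ, (∀ a b, c a ⬝ᵥ u b = if a = b then 1 else 0) →
    (∀ a, u a ⬝ᵥ u a ≤ B * ℓ) → (∀ a, (Dm g.A *ᵥ u a) ⬝ᵥ (Dm g.A *ᵥ u a) * ℓ ≤ B) →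
    (∀ φ, (∀ a, c a ⬝ᵥ φ = 0) → ∀ t : Fin p × Fin 2 → ℝ, φ ⬝ᵥ φ ≤ (Γ * ℓ) ^ 2 *
      ((Dm g.A *ᵥ φ - ∑ a, t a • c a) ⬝ᵥ (Dm g.A *ᵥ φ - ∑ a, t a • c a))) → ∀ h : ℝ, C ≤ h →
    g.LastB ℓ h (C * |aug (Ev.val (g.Om (∏ i, pp (g.ex (c (i, 0))) (g.ex (c (i, 1))))))|) := by
  obtain ⟨t, K, ht, hK, H⟩ := la p B Γ
  obtain ⟨κ, hκ⟩ : ∃ κ : ℝ, κ = K * (2 + 2 * Fintype.card (Fin p × Fin 2)) := ⟨_, rfl⟩
  have hκ0 : 0 ≤ κ := by rw [hκ]; positivity
  obtain ⟨W, hW⟩ : ∃ W : ℝ, W = (1 + |-t| * (2 * √κ * (2 * √κ))) ^ Fintype.card (Fin p) :=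
    ⟨_, rfl⟩
  have hW1 : 1 ≤ W := by
    rw [hW]
    exact one_le_pow₀ (le_add_of_nonneg_right (by positivity))
  have hKW : 1 ≤ K * W := one_le_mul_of_one_le_of_one_le hK hW1
  have hs0 : 0 ≤ √κ * 2 ^ 31 := by positivity
  refine ⟨K * W + √κ * 2 ^ 31, by linarith, fun g hA ℓ h8 c u h1 h2 h3 h4 h hh β hβ F hF => ?_⟩
  have hl : (1 : ℝ) ≤ ℓ := by exact_mod_cast (by omega : 1 ≤ ℓ)
  have h0 : 0 < h := by linarith
  have hD := P144Z.W.isD_Dm hA
  obtain ⟨G, hi, hG, g1, g2, g3, g4⟩ := H _ (Dm g.A) hD.anti ℓ hl c u h1 h2 h3 h4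
  have hG' : (-G)ᵀ = -(-G) := by rw [transpose_neg, hG]
  set m : (Fin p × Fin 2 → ℝ) →ₗ[ℝ] (g.S → ℝ) := exL g ∘ₗ Fintype.linearCombination ℝ c with hm
  have hm1 : ∀ a, m (Pi.single a 1) = g.ex (c a) := fun a => by
    rw [hm, LinearMap.comp_apply, Fintype.linearCombination_apply_single, one_smul]; rfl
  have hm2 : ∀ a s, pr (fun a => g.ex (c a)) a s
      = evMap m (pr (fun a : Fin p × Fin 2 => Pi.single a 1) a s) := fun a s => by
    rw [evMap_pr]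
    simp only [hm1]
  set a := aug (Ev.val (g.Om (pr (fun a => g.ex (c a)) 1 t))) with ha
  -- the normalisation
  have hn : |a| ≤ K * |aug (Ev.val (g.Om (∏ i, pp (g.ex (c (i, 0))) (g.ex (c (i, 1))))))| := by
    set N : Matrix (Fin p × Fin 2) (Fin p × Fin 2) ℝ := Matrix.of fun a b => c a ⬝ᵥ G *ᵥ c b
      with hN
    have hNa : (-N)ᵀ = -(-N) := by
      ext a b
      simp only [hN, transpose_apply, Matrix.neg_apply, of_apply, neg_neg]
      rw [dotProduct_mulVec, ← mulVec_transpose, hG, neg_mulVec, neg_dotProduct, neg_neg,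
        dotProduct_comm]
    have e1 := congrArg (fun x => aug (Ev.val x))
      (Om_low c t hG hi (pr (fun a => g.ex (c a)) 0 1))
    rw [pr_mul_top, map_mul, map_mul, ← ha, val_noF, aug_map, val_evG, hm2 0 1, val_evMap,
      gauss_map hNa (I2.exM_anti g hG') m (mem_loc_univ _) (fun s _ s' _ => by
        rw [hm1, hm1, RN.exM_dot, ex_inl, ex_inl, neg_mulVec, dotProduct_neg]; rfl),
      aug_map, ← H4.ex_apply, ← hm2, pr_top] at e1
    have e2 := pf_top hNa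
    rw [det_neg, abs_mul, abs_pow, abs_neg, abs_one, one_pow, one_mul] at e2
    rw [← e2] at g4
    rw [e1, abs_mul, ← mul_assoc]
    refine le_mul_of_one_le_left (abs_nonneg _) ?_
    rw [← sq_abs] at g4
    set x := |H4.ex (-N) (pr (fun a : Fin p × Fin 2 => Pi.single a 1) 0 1)|
    have hx : 0 ≤ x := abs_nonneg _
    by_contra hc
    push Not at hc
    nlinarith [mul_nonneg hx (sub_nonneg.2 hK), mul_nonneg (mul_nonneg hx hx) (sub_nonneg.2 hK)]
  -- the norm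
  have hTL : g.TL ℓ F = a • g.noF (evG (g.exM (-G))
      (pr (fun a => g.ex (c a)) 1 (-t) * evMap (g.smo ℓ) F)) := by
    rw [← mul_one (g.noF _), ← mul_smul_comm, ha, ← Om_pr, ← Om_low c t hG hi, ← mul_assoc,
      pr_inv, one_mul, TL]
  have hb : g.ps β univ (g.noF (evG (g.exM (-G))
      (pr (fun a => g.ex (c a)) 1 (-t) * evMap (g.smo ℓ) F))) ≤ W * g.pn ℓ h β univ F := by
    refine RN.pn_le le_rfl one_pos hβ (noF_mem_univ _) fun r hr => ?_
    obtain ⟨r₁, r₂, b1, b2, b3⟩ := pull2 (I2.exM_anti g hG') (g.smo ℓ) m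
      (Matrix.toLin' (Rm (Dm g.A) ℓ) ∘ₗ LinearMap.funLeft ℝ ℝ Sum.inl) hκ0 (by linarith : (0:ℝ) ≤ ℓ)
      (fun δ α δ' α' => by
        have e : ∀ δ α, (g.smo ℓ δ + m α) ∘ Sum.inl
            = Rm (Dm g.A) ℓ *ᵥ (δ ∘ Sum.inl) + ∑ a, α a • c a := fun δ α => by
          rw [← act_inl]; rfl
        rw [RN.exM_dot, e, e, neg_mulVec, dotProduct_neg, neg_sq, hκ]
        exact gram_low hG c hK (by linarith) g1 g2 g3 _ _ α α') (A3.comap r (pS g))
    rw [val_noF, ← A3.opn_comap_ev, val_evG, map_mul, hm2, val_evMap, val_evMap]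
    refine (b3 _ _).trans (mul_le_mul ?_ (RN.le_pn (by omega) h0 hβ hF fun q hq => ?_)
      (A3.opn_nonneg _) (by linarith))
    · rw [hW]
      refine opn_pr r₂ _ (fun a => (b2 _).trans (le_of_eq ?_)) _
      rw [A3.opn_comap, hm1, pS_ex, RN.opn_Psi_zero, zero_add, single_one_dotProduct,
        Pi.single_eq_same, mul_one]
    · rcases RN.cons_cases hq with ⟨z, hz, δ, c', hs, hc', hd, rfl⟩ | ⟨k, i, hk, rfl⟩
      · refine (b1 _).trans ?_
        have a1 := Rm_dom hD (ℓ := ℓ) (δ := δ) (c := c') fun u => (hd u).trans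
          (mul_le_mul_of_nonneg_left (by
            refine (RN.hsq_mono g.A (Nat.cast_nonneg ℓ) le_rfl (subset_univ _) u).trans_eq ?_
            simp only [hsq, E4.l2sq_univ]) (sq_nonneg _))
        have a2 : √(κ * (ℓ * ((Rm (Dm g.A) ℓ *ᵥ δ) ⬝ᵥ (Rm (Dm g.A) ℓ *ᵥ δ))))
            ≤ √κ * 2 ^ 30 * c' := by
          refine Real.sqrt_le_iff.2 ⟨by positivity, ?_⟩
          rw [mul_pow, mul_pow, Real.sq_sqrt hκ0, mul_assoc]
          exact mul_le_mul_of_nonneg_left (a1.trans (le_of_eq (by norm_num))) hκ0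
        rw [A3.opn_comap, smo_eq, pS_act, pS_ex, RN.opn_Psi_zero, zero_add]
        change 2 * √(κ * (ℓ * ((Rm (Dm g.A) ℓ *ᵥ δ) ⬝ᵥ (Rm (Dm g.A) ℓ *ᵥ δ)))) ≤ h * c'
        have a3 : √κ * 2 ^ 31 * c' ≤ h * c' := mul_le_mul_of_nonneg_right (by linarith) hc'
        linarith
      · refine (b1 _).trans ?_
        have e : (Matrix.toLin' (Rm (Dm g.A) ℓ) ∘ₗ LinearMap.funLeft ℝ ℝ Sum.inl)
            (Pi.single (Sum.inr (k, i)) 1 : g.S → ℝ) = 0 := by
          have : LinearMap.funLeft ℝ ℝ Sum.inl (Pi.single (Sum.inr (k, i)) 1 : g.S → ℝ) = 0 := by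
            funext s
            simp [LinearMap.funLeft_apply]
          rw [LinearMap.comp_apply, this, map_zero]
        rw [A3.opn_comap, smo_eq, pS_act, e, zero_dotProduct, mul_zero, mul_zero, Real.sqrt_zero,
          mul_zero, add_zero, RN.prB_src]
        exact RN.In.src hr hk i
  rw [hTL, ps, RN.pn_smul le_rfl one_pos hβ]
  refine (mul_le_mul hn hb (RN.pn_nonneg _) (by positivity)).trans ?_
  have p1 := RN.pn_nonneg (g := g) (ℓ := ℓ) (h := h) (β := β) (X := univ) F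
  have p2 := abs_nonneg (aug (Ev.val (g.Om (∏ i, pp (g.ex (c (i, 0))) (g.ex (c (i, 1)))))))
  nlinarith [mul_nonneg (mul_nonneg hs0 p2) p1]

end Vale.Agent.P144Z.LM
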