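import Vale.Agent.P144D.LM.Basic

/-!
Tools for the last integration with low modes.
-/

namespace Vale.Agent.P144Z.LM

open Finset Matrix I2 A1

set_option linter.unusedSectionVars false

variable {S I T ι : Type} [Fintype S] [DecidableEq S] [Fintype I] [DecidableEq I] [Fintype T]
  [DecidableEq T] [Fintype ι] [DecidableEq ι]

/-- The product of all pairs. -/
noncomputable def pr (c : ι × Fin 2 → S → ℝ) (a s : ℝ) : Ev S :=
  ∏ i, (a • 1 + s • pp (c (i, 0)) (c (i, 1)))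

theorem pr_top (c : ι × Fin 2 → S → ℝ) : pr c 0 1 = ∏ i, pp (c (i, 0)) (c (i, 1)) := by
  simp [pr]

theorem exp_pr (c : ι × Fin 2 → S → ℝ) (s : ℝ) :
    NormedSpace.exp (s • qd (∑ i, vecMulVec (c (i, 0)) (c (i, 1)))) = pr c 1 s := by
  rw [map_sum, smul_sum, exp_sum_sq _ _ fun i => smul_sq (by rw [H4.qd_vecMulVec, pp_sq]) s]
  simp only [pr, H4.qd_vecMulVec, one_smul]

theorem pr_inv (c : ι × Fin 2 → S → ℝ) (s : ℝ) : pr c 1 s * pr c 1 (-s) = 1 := by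
  rw [← exp_pr, ← exp_pr, ← exp_add', ← add_smul, add_neg_cancel, zero_smul,
    NormedSpace.exp_zero]

theorem pr_mul_top (c : ι × Fin 2 → S → ℝ) (s : ℝ) : pr c 1 s * pr c 0 1 = pr c 0 1 := by
  rw [pr_top, pr, ← prod_mul_distrib]
  refine prod_congr rfl fun i _ => ?_
  rw [add_mul, smul_mul_assoc, smul_mul_assoc, pp_sq, smul_zero, add_zero, one_mul, one_smul]

theorem evMap_pr (f : (S → ℝ) →ₗ[ℝ] (T → ℝ)) (c : ι × Fin 2 → S → ℝ) (a s : ℝ) :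
    evMap f (pr c a s) = pr (fun i => f (c i)) a s := by
  rw [pr, evMap_prod]
  simp only [map_add, map_smul, evMap_one, evMap_pp, pr]

/-- The Pfaffian squared is the determinant. -/
theorem pf_top {N : Matrix (ι × Fin 2) (ι × Fin 2) ℝ} (hN : Nᵀ = -N) :
    H4.ex N (pr (fun a : ι × Fin 2 => Pi.single a 1) 0 1) ^ 2 = |N.det| := by
  set e : ι × Fin 2 → ι × Fin 2 → ℝ := fun a => Pi.single a 1 with he
  set U := ∑ i, vecMulVec (e (i, 0)) (e (i, 1)) with hU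
  have hJ : (U - Uᵀ).det = 1 := by
    have : U - Uᵀ = kroneckerMap (· * ·) (1 : Matrix ι ι ℝ) !![0, 1; -1, 0] := by
      ext ⟨i, a⟩ ⟨j, b⟩
      fin_cases a <;> fin_cases b <;>
        simp [hU, he, Matrix.sum_apply, vecMulVec_apply, Pi.single_apply, one_apply, eq_comm]
    rw [this, det_kronecker]
    simp [det_fin_two]
  have c1 : Continuous fun ε : ℝ => H4.ex N (pr e ε 1) ^ 2 := by
    refine Continuous.pow ((H4.ex N).continuous_of_finiteDimensional.comp ?_) 2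
    unfold pr
    fun_prop
  have c2 : Continuous fun ε : ℝ => (ε • (1 : Matrix (ι × Fin 2) (ι × Fin 2) ℝ)
      - N * (U - Uᵀ)).det := Continuous.matrix_det (by fun_prop)
  have h := congrFun (Continuous.ext_on (dense_compl_singleton (0 : ℝ)) c1 c2 fun ε hε => by
    have h0 : ε ≠ 0 := hε
    have h1 : pr e ε 1 = ε ^ Fintype.card ι • pr e 1 ε⁻¹ := by
      rw [pr, pr, ← Finset.card_univ, ← prod_const, ← Finset.prod_smul]
      refine prod_congr rfl fun i _ => ?_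
      rw [smul_add, smul_smul, smul_smul, mul_one, mul_inv_cancel₀ h0]
    have h2 := H4.pf_sq hN (ε⁻¹ • U)
    rw [H4.pf, map_smul, exp_pr] at h2
    have h3 : ε • (1 : Matrix (ι × Fin 2) (ι × Fin 2) ℝ) - N * (U - Uᵀ)
        = ε • (1 - N * (ε⁻¹ • U - (ε⁻¹ • U)ᵀ)) := by
      rw [transpose_smul, ← smul_sub, Matrix.mul_smul, smul_sub, smul_smul, mul_inv_cancel₀ h0,
        one_smul]
    rw [h1, map_smul, smul_eq_mul, mul_pow, h2, h3, det_smul, ← pow_mul, Fintype.card_prod,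
      Fintype.card_fin]) 0
  simp only [zero_smul, zero_sub] at h
  rw [← abs_of_nonneg (sq_nonneg (H4.ex N (pr e 0 1))), h, det_neg, det_mul, hJ, abs_mul, abs_pow,
    abs_neg, abs_one, one_pow, one_mul, mul_one]

theorem opn_pr (r : Rep I) (c : ι × Fin 2 → I → ℝ) {b : ℝ} (hb : ∀ a, opn (r.Ψ (c a)) ≤ b)
    (s : ℝ) : opn (r.ev (Ev.val (pr c 1 s))) ≤ (1 + |s| * (b * b)) ^ Fintype.card ι := by
  have key : ∀ t : Finset ι, opn (r.ev (Ev.val (∏ i ∈ t,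
      ((1 : ℝ) • 1 + s • pp (c (i, 0)) (c (i, 1)))))) ≤ (1 + |s| * (b * b)) ^ t.card := by
    intro t
    induction t using Finset.induction_on with
    | empty => rw [prod_empty, map_one, map_one, card_empty, pow_zero]; exact A3.opn_one
    | insert i t hi ih =>
      have h0 := (A3.opn_nonneg _).trans (hb (i, 0))
      rw [prod_insert hi, map_mul, map_mul, card_insert_of_notMem hi, pow_succ']
      refine (A3.opn_mul _ _).trans (mul_le_mul ?_ ih (A3.opn_nonneg _) (by positivity))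
      rw [one_smul, map_add, map_add, map_one, map_one, map_smul, map_smul, val_pp, map_mul,
        A3.ev_psi, A3.ev_psi]
      refine (A3.opn_add _ _).trans (add_le_add A3.opn_one ?_)
      rw [A3.opn_smul]
      exact mul_le_mul_of_nonneg_left ((A3.opn_mul _ _).trans
        (mul_le_mul (hb _) (hb _) (A3.opn_nonneg _) h0)) (abs_nonneg _)
  exact key univ

/-- Extension by zero, left. -/
def eL (S I : Type) : (S → ℝ) →ₗ[ℝ] (S ⊕ I → ℝ) where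
  toFun δ := Sum.elim δ 0
  map_add' a b := by funext s; cases s <;> simp
  map_smul' c a := by funext s; cases s <;> simp

/-- Extension by zero, right. -/
def eR (S I : Type) : (I → ℝ) →ₗ[ℝ] (S ⊕ I → ℝ) where
  toFun δ := Sum.elim 0 δ
  map_add' a b := by funext s; cases s <;> simp
  map_smul' c a := by funext s; cases s <;> simp

/-- The Gram bound for two families of fields. -/
theorem pull2 {C : Matrix S S ℝ} (hC : Cᵀ = -C) (f : (S → ℝ) →ₗ[ℝ] (S → ℝ))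
    (m : (I → ℝ) →ₗ[ℝ] (S → ℝ)) (A : (S → ℝ) →ₗ[ℝ] (T → ℝ)) {κ l : ℝ} (hκ : 0 ≤ κ) (hl : 0 ≤ l)
    (hG : ∀ δ α δ' α', ((f δ + m α) ⬝ᵥ C *ᵥ (f δ' + m α')) ^ 2 ≤
      (κ * (l * (A δ ⬝ᵥ A δ) + α ⬝ᵥ α)) * (κ * (l * (A δ' ⬝ᵥ A δ') + α' ⬝ᵥ α'))) (r : Rep S) :
    ∃ (r₁ : Rep S) (r₂ : Rep I),
      (∀ δ, opn (r₁.Ψ δ) ≤ opn (r.Ψ (f δ)) + 2 * √(κ * (l * (A δ ⬝ᵥ A δ)))) ∧
      (∀ α, opn (r₂.Ψ α) ≤ opn (r.Ψ (m α)) + 2 * √(κ * (α ⬝ᵥ α))) ∧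
      ∀ X Y, opn (r.ev (gauss C (ExteriorAlgebra.map m X * ExteriorAlgebra.map f Y)))
        ≤ opn (r₂.ev X) * opn (r₁.ev Y) := by
  set pl : (S ⊕ I → ℝ) →ₗ[ℝ] (S → ℝ) := LinearMap.funLeft ℝ ℝ Sum.inl with hpl
  set pq : (S ⊕ I → ℝ) →ₗ[ℝ] (I → ℝ) := LinearMap.funLeft ℝ ℝ Sum.inr with hpq
  set φ : (S ⊕ I → ℝ) →ₗ[ℝ] (S → ℝ) := f ∘ₗ pl + m ∘ₗ pq with hφ
  set Mφ := LinearMap.toMatrix' φ with hM
  set MA := LinearMap.toMatrix' (A ∘ₗ pl) with hMA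
  set MB := LinearMap.toMatrix' pq with hMB
  have dm : ∀ {U : Type} [Fintype U] (X Y : Matrix U (S ⊕ I) ℝ) (v w : S ⊕ I → ℝ),
      v ⬝ᵥ (Xᵀ * Y) *ᵥ w = (X *ᵥ v) ⬝ᵥ (Y *ᵥ w) := by
    intro U _ X Y v w
    rw [← mulVec_mulVec, dotProduct_mulVec v, vecMul_transpose]
  have h1 : ∀ x y, x ⬝ᵥ (Mφᵀ * (C * Mφ)) *ᵥ y = φ x ⬝ᵥ C *ᵥ φ y := by
    intro x y
    rw [dm, ← mulVec_mulVec, hM, LinearMap.toMatrix'_mulVec, LinearMap.toMatrix'_mulVec]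
  have h2 : ∀ x, x ⬝ᵥ (κ • (l • (MAᵀ * MA) + MBᵀ * MB)) *ᵥ x
      = κ * (l * (A (pl x) ⬝ᵥ A (pl x)) + pq x ⬝ᵥ pq x) := by
    intro x
    rw [smul_mulVec, dotProduct_smul, add_mulVec, dotProduct_add, smul_mulVec, dotProduct_smul,
      dm, dm, hMA, hMB, LinearMap.toMatrix'_mulVec, LinearMap.toMatrix'_mulVec]
    rfl
  have h3 : (Mφᵀ * (C * Mφ))ᵀ = -(Mφᵀ * (C * Mφ)) := by
    rw [transpose_mul, transpose_mul, transpose_transpose, hC, Matrix.mul_neg, Matrix.neg_mul,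
      Matrix.mul_assoc]
  have h4 : (κ • (l • (MAᵀ * MA) + MBᵀ * MB)).PosSemidef := by
    refine PosSemidef.smul (PosSemidef.add (PosSemidef.smul ?_ hl) ?_) hκ
    · rw [← conjTranspose_eq_transpose_of_trivial]
      exact posSemidef_conjTranspose_mul_self MA
    · rw [← conjTranspose_eq_transpose_of_trivial]
      exact posSemidef_conjTranspose_mul_self MB
  obtain ⟨r', h5, h6⟩ := A4.exists_rep_gauss h3 h4
    (fun x y => by rw [h1, h2, h2]; exact hG _ _ _ _) (A3.comap r φ)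
  have e1 : φ ∘ₗ eL S I = f := LinearMap.ext fun δ => by
    change f δ + m 0 = f δ
    rw [map_zero, add_zero]
  have e2 : φ ∘ₗ eR S I = m := LinearMap.ext fun α => by
    change f 0 + m α = m α
    rw [map_zero, zero_add]
  refine ⟨A3.comap r' (eL S I), A3.comap r' (eR S I), fun δ => ?_, fun α => ?_, fun X Y => ?_⟩
  · have := h5 (eL S I δ)
    rw [h2, A3.opn_comap, ← LinearMap.comp_apply φ, e1] at this
    change _ ≤ _ + 2 * √(κ * (l * (A δ ⬝ᵥ A δ) + (0 : I → ℝ) ⬝ᵥ 0)) at this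
    rwa [zero_dotProduct, add_zero] at this
  · have := h5 (eR S I α)
    rw [h2, A3.opn_comap, ← LinearMap.comp_apply φ, e2] at this
    change _ ≤ _ + 2 * √(κ * (l * (A 0 ⬝ᵥ A 0) + α ⬝ᵥ α)) at this
    rwa [map_zero, zero_dotProduct, mul_zero, zero_add] at this
  · have h7 := h6 (ExteriorAlgebra.map (eR S I) X * ExteriorAlgebra.map (eL S I) Y)
    rw [A3.opn_comap_ev, ← gauss_map h3 hC φ (mem_loc_univ _) (fun s _ s' _ => by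
      rw [← h1, single_one_dotProduct, mulVec_single_one]; rfl), map_mul (ExteriorAlgebra.map φ),
      I2.map_map, I2.map_map, e1, e2, map_mul r'.ev] at h7
    rw [A3.opn_comap_ev, A3.opn_comap_ev]
    exact h7.trans (A3.opn_mul _ _)

theorem abs_dot_le2 {v w : T → ℝ} {a b : ℝ} (ha : 0 ≤ a) (hb : 0 ≤ b) (hv : v ⬝ᵥ v ≤ a ^ 2)
    (hw : w ⬝ᵥ w ≤ b ^ 2) : |v ⬝ᵥ w| ≤ a * b := by
  refine abs_le_of_sq_le_sq ((C.dot_cs v w).trans ?_) (by positivity)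
  rw [mul_pow]
  exact mul_le_mul hv hw (C.dot_nonneg _) (by positivity)

/-- The Gram bound of the inverse with the low modes. -/
theorem gram_low {G : Matrix T T ℝ} (hG : Gᵀ = -G) (c : I → T → ℝ) {K l : ℝ} (hK : 1 ≤ K)
    (hl : 0 ≤ l) (h1 : ∀ f, (G *ᵥ f) ⬝ᵥ (G *ᵥ f) ≤ (K * l) ^ 2 * (f ⬝ᵥ f))
    (h2 : ∀ a, (G *ᵥ c a) ⬝ᵥ (G *ᵥ c a) ≤ K * l) (h3 : ∀ a b, |c a ⬝ᵥ G *ᵥ c b| ≤ K)
    (x y : T → ℝ) (α α' : I → ℝ) :
    ((x + ∑ a, α a • c a) ⬝ᵥ G *ᵥ (y + ∑ a, α' a • c a)) ^ 2 ≤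
      (K * (2 + 2 * Fintype.card I) * (l * (x ⬝ᵥ x) + α ⬝ᵥ α)) *
        (K * (2 + 2 * Fintype.card I) * (l * (y ⬝ᵥ y) + α' ⬝ᵥ α')) := by
  have hK0 : 0 ≤ K := by linarith
  have hs : √l * √l = l := Real.mul_self_sqrt hl
  have hn : ∀ v : T → ℝ, v ⬝ᵥ v ≤ √(v ⬝ᵥ v) ^ 2 := fun v => (Real.sq_sqrt (C.dot_nonneg v)).ge
  have hc : ∀ (v : T → ℝ) a, |v ⬝ᵥ G *ᵥ c a| ≤ √(v ⬝ᵥ v) * (K * √l) := fun v a =>
    abs_dot_le2 (Real.sqrt_nonneg _) (by positivity) (hn v) ((h2 a).trans (by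
      rw [mul_pow, Real.sq_sqrt hl]
      exact mul_le_mul_of_nonneg_right (by nlinarith) hl))
  have hc' : ∀ (v : T → ℝ) a, |c a ⬝ᵥ G *ᵥ v| ≤ √(v ⬝ᵥ v) * (K * √l) := fun v a => by
    rw [dotProduct_mulVec, ← mulVec_transpose, hG, neg_mulVec, neg_dotProduct, abs_neg,
      dotProduct_comm]
    exact hc v a
  have hxy : |x ⬝ᵥ G *ᵥ y| ≤ √(x ⬝ᵥ x) * (K * l * √(y ⬝ᵥ y)) :=
    abs_dot_le2 (Real.sqrt_nonneg _) (by positivity) (hn x) ((h1 y).trans (by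
      rw [mul_pow (K * l), Real.sq_sqrt (C.dot_nonneg y)]))
  have e : (x + ∑ a, α a • c a) ⬝ᵥ G *ᵥ (y + ∑ a, α' a • c a) =
      x ⬝ᵥ G *ᵥ y + ∑ b, α' b * (x ⬝ᵥ G *ᵥ c b) + ∑ a, α a * (c a ⬝ᵥ G *ᵥ y)
        + ∑ a, ∑ b, α a * α' b * (c a ⬝ᵥ G *ᵥ c b) := by
    simp only [mulVec_add, add_dotProduct, dotProduct_add, mulVec_sum, dotProduct_sum,
      sum_dotProduct, mulVec_smul, dotProduct_smul, smul_dotProduct, smul_eq_mul, mul_add,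
      sum_add_distrib, mul_sum]
    rw [sum_comm (f := fun b a => α' b * (α a * (c a ⬝ᵥ G *ᵥ c b)))]
    simp only [mul_left_comm (α' _), mul_assoc]
    ring
  have b1 : |∑ b, α' b * (x ⬝ᵥ G *ᵥ c b)| ≤ (∑ b, |α' b|) * (√(x ⬝ᵥ x) * (K * √l)) := by
    rw [sum_mul]
    refine (abs_sum_le_sum_abs _ _).trans (sum_le_sum fun b _ => ?_)
    rw [abs_mul]
    exact mul_le_mul_of_nonneg_left (hc x b) (abs_nonneg _)
  have b2 : |∑ a, α a * (c a ⬝ᵥ G *ᵥ y)| ≤ (∑ a, |α a|) * (√(y ⬝ᵥ y) * (K * √l)) := by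
    rw [sum_mul]
    refine (abs_sum_le_sum_abs _ _).trans (sum_le_sum fun b _ => ?_)
    rw [abs_mul]
    exact mul_le_mul_of_nonneg_left (hc' y b) (abs_nonneg _)
  have b3 : |∑ a, ∑ b, α a * α' b * (c a ⬝ᵥ G *ᵥ c b)| ≤ (∑ a, |α a|) * (∑ b, |α' b|) * K := by
    rw [sum_mul_sum, sum_mul]
    refine (abs_sum_le_sum_abs _ _).trans (sum_le_sum fun a _ => ?_)
    rw [sum_mul]
    refine (abs_sum_le_sum_abs _ _).trans (sum_le_sum fun b _ => ?_)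
    rw [abs_mul, abs_mul]
    exact mul_le_mul_of_nonneg_left (h3 a b) (by positivity)
  have hN : ∀ (v : T → ℝ) (γ : I → ℝ), (√l * √(v ⬝ᵥ v) + ∑ a, |γ a|) ^ 2
      ≤ (2 + 2 * Fintype.card I) * (l * (v ⬝ᵥ v) + γ ⬝ᵥ γ) := by
    intro v γ
    have a1 : (√l * √(v ⬝ᵥ v)) ^ 2 = l * (v ⬝ᵥ v) := by
      rw [mul_pow, Real.sq_sqrt hl, Real.sq_sqrt (C.dot_nonneg v)]
    have a2 : (∑ a, |γ a|) ^ 2 ≤ Fintype.card I * (γ ⬝ᵥ γ) := by
      refine (sq_sum_le_card_mul_sum_sq).trans (le_of_eq ?_)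
      simp only [card_univ, sq_abs, dotProduct, sq, abs_mul_abs_self]
    have a3 := C.dot_nonneg γ
    have a4 := mul_nonneg hl (C.dot_nonneg v)
    have a5 : (0 : ℝ) ≤ Fintype.card I := Nat.cast_nonneg _
    nlinarith [sq_nonneg (√l * √(v ⬝ᵥ v) - ∑ a, |γ a|), mul_nonneg a5 a4]
  have tot : |(x + ∑ a, α a • c a) ⬝ᵥ G *ᵥ (y + ∑ a, α' a • c a)| ≤
      K * ((√l * √(x ⬝ᵥ x) + ∑ a, |α a|) * (√l * √(y ⬝ᵥ y) + ∑ a, |α' a|)) := by
    rw [e]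
    refine (abs_add_le _ _).trans ((add_le_add ((abs_add_le _ _).trans (add_le_add
      ((abs_add_le _ _).trans (add_le_add hxy b1)) b2)) b3).trans (le_of_eq ?_))
    linear_combination (-K * √(x ⬝ᵥ x) * √(y ⬝ᵥ y)) * hs
  rw [← sq_abs]
  refine (pow_le_pow_left₀ (abs_nonneg _) tot 2).trans ?_
  rw [mul_pow, mul_pow]
  refine (mul_le_mul_of_nonneg_left (mul_le_mul (hN x α) (hN y α') (sq_nonneg _)
    ((sq_nonneg _).trans (hN x α))) (sq_nonneg K)).trans (le_of_eq ?_)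
  ring

/-- The smoothed field is bounded by the dual Sobolev norm. -/
theorem Rm_dom {D : Matrix S S ℝ} (hD : IsD D) {ℓ : ℕ} {δ : S → ℝ} {c : ℝ}
    (h : ∀ u, (δ ⬝ᵥ u) ^ 2 * ℓ ≤ c ^ 2 *
      ∑ k ∈ range 5, (ℓ : ℝ) ^ (2 * k) * (((D ^ k) *ᵥ u) ⬝ᵥ ((D ^ k) *ᵥ u))) :
    ℓ * ((Rm D ℓ *ᵥ δ) ⬝ᵥ (Rm D ℓ *ᵥ δ)) ≤ 2 ^ 60 * c ^ 2 := by
  have h1 := h (Rm D ℓ *ᵥ (Rm D ℓ *ᵥ δ))
  have e1 : δ ⬝ᵥ Rm D ℓ *ᵥ (Rm D ℓ *ᵥ δ) = (Rm D ℓ *ᵥ δ) ⬝ᵥ (Rm D ℓ *ᵥ δ) := by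
    rw [C.dot_mulVec, Rm_tr, mulVec_mulVec]
  have h2 := C.fc_le D (f := fun s => (rq (ℓ / 32)).eval s *
      (C.wt ℓ s * (rq (ℓ / 32)).eval s)) (c := 2 ^ 60) (fun s hs => by
    have a1 := C.rp_wt (ℓ := ℓ) (m := ℓ / 32) le_rfl (C.spec_mem hD hs)
    have a2 := C.one_le_wt ℓ (C.spec_mem hD hs).1
    rw [← rq_sq, abs_mul_self] at a1
    linarith) (Rm D ℓ *ᵥ δ)
  rw [C.sob_eq hD.anti, e1, mulVec_mulVec (Rm D ℓ *ᵥ δ), C.dot_mulVec _ _ (Rm D ℓ *ᵥ δ), Rm_tr]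
    at h1
  rw [C.fc_mul, C.fc_mul, ← Rm_eq] at h2
  have h0 := C.dot_nonneg (Rm D ℓ *ᵥ δ)
  set q := (Rm D ℓ *ᵥ δ) ⬝ᵥ (Rm D ℓ *ᵥ δ)
  have h3 := h1.trans (mul_le_mul_of_nonneg_left h2 (sq_nonneg c))
  rcases h0.eq_or_lt with h4 | h4
  · rw [← h4, mul_zero]
    positivity
  · refine le_of_mul_le_mul_right ?_ h4
    nlinarith

end Vale.Agent.P144Z.LM
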